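import Vale.Agent.P280.S.H980.Sym

/-! P280: the action of `2` is an automorphism with scalar differential `2`. -/

open DirectSum Module

namespace Vale.Agent.P280.R2.H730

open Vale.Agent.P280 Vale.Agent.P280.S

variable {R : Type} [CommRing R] [Algebra ℂ R]

/-- The automorphism `2 ^ m`. -/
theorem exists_two (ℬ : ℕ × ℤ → Submodule ℂ R) [GradedAlgebra ℬ] :
    ∃ F : R ≃ₐ[ℂ] R, ∀ (d : ℕ) (m : ℤ), ∀ h ∈ ℬ (d, m), F h = (2 : ℂ) ^ m • h := by
  have key : ∀ c : ℂ, c ≠ 0 → ∃ F : R →ₐ[ℂ] R, ∀ (d : ℕ) (m : ℤ), ∀ h ∈ ℬ (d, m),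
      F h = c ^ m • h := by
    intro c hc
    obtain ⟨F, hF⟩ := T.exists_algHom ℬ (fun i : ℕ × ℤ => (c ^ i.2) • (LinearMap.id : R →ₗ[ℂ] R))
      (by
        change (c ^ (0 : ℤ)) • (1 : R) = 1
        rw [zpow_zero, one_smul])
      (by
        rintro ⟨d, m⟩ ⟨d', m'⟩ a _ b _
        change (c ^ (m + m')) • (a * b) = ((c ^ m) • a) * ((c ^ m') • b)
        rw [zpow_add₀ hc, smul_mul_smul_comm])
    exact ⟨F, fun d m h hh => hF (d, m) h hh⟩
  obtain ⟨F, hF⟩ := key 2 two_ne_zero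
  obtain ⟨G, hG⟩ := key 2⁻¹ (inv_ne_zero two_ne_zero)
  have h1 : F.comp G = AlgHom.id ℂ R := by
    refine T.algHom_ext_graded ℬ ?_
    rintro ⟨d, m⟩ a ha
    rw [AlgHom.comp_apply, hG d m a ha, map_smul, hF d m a ha, smul_smul, ← mul_zpow,
      inv_mul_cancel₀ two_ne_zero, one_zpow, one_smul]
    rfl
  have h2 : G.comp F = AlgHom.id ℂ R := by
    refine T.algHom_ext_graded ℬ ?_
    rintro ⟨d, m⟩ a ha
    rw [AlgHom.comp_apply, hF d m a ha, map_smul, hG d m a ha, smul_smul, ← mul_zpow,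
      mul_inv_cancel₀ two_ne_zero, one_zpow, one_smul]
    rfl
  exact ⟨AlgEquiv.ofAlgHom F G h1 h2, hF⟩

variable {𝒜 : ℕ → Submodule ℂ R} {ℬ : ℕ × ℤ → Submodule ℂ R} [GradedAlgebra ℬ]

theorem two_tangent (hX : T.IsTorusManifold ℬ) {x : R →ₐ[ℂ] ℂ} (hx0 : ¬ T.IsVertex ℬ x)
    (hx : T.IsFixed ℬ x 0) (hw : ∀ χ, T.TangentWeight ℬ x 0 χ → χ = 1) {F : R ≃ₐ[ℂ] R}
    (hF : ∀ (d : ℕ) (m : ℤ), ∀ h ∈ ℬ (d, m), F h = (2 : ℂ) ^ m • h) {v : R →ₗ[ℂ] ℂ}
    (hv : T.IsTangent x v) :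
    ∃ c : ℂ, ∀ (d : ℕ) (m : ℤ), ∀ h ∈ ℬ (d, m), v (F h) = 2 * v h + c * d * x h := by
  have hsrc := H980.isSource_one hx0 hx hw
  obtain ⟨f, hf, hxf⟩ := H939.source_s1 hX hsrc
  obtain ⟨-, hspan⟩ := H939.source_s2 hX hsrc
  refine ⟨-v f, fun d m h hh => ?_⟩
  rw [hF d m h hh, map_smul, smul_eq_mul]
  by_cases hm0 : m = 0
  · subst hm0
    obtain ⟨a, ha⟩ := hspan f hf (by rw [hxf]; exact one_ne_zero) d h (by rw [smul_zero]; exact hh)
    have h1 := H127.tangent_pow hv f d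
    rw [hxf, one_mul, one_pow, mul_one] at h1
    have e1 : v h = a * (d * v f) := by rw [ha, map_smul, smul_eq_mul, h1]
    have e2 : x h = a := by rw [ha, map_smul, map_pow, hxf, one_pow, smul_eq_mul, mul_one]
    rw [zpow_zero, e1, e2]
    ring
  have hxh : x h = 0 := by
    by_contra hne
    have h1 := hx d m h hh hne
    rw [smul_zero] at h1
    exact hm0 h1
  rw [hxh, mul_zero, add_zero]
  by_cases hm1 : m = 1
  · rw [hm1, zpow_one]
  have hvh : v h = 0 := by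
    by_contra hne
    obtain ⟨v', h1, h2, h3⟩ := H587.exists_component hx hv m
    have h4 := h3 d m h hh (by rw [smul_zero, zero_add])
    exact hm1 (hw m (H587.tangentWeight_of_ne hx hm0 h1 h2 d m hh (by rw [h4]; exact hne)))
  rw [hvh, mul_zero, mul_zero]

end Vale.Agent.P280.R2.H730

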