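import Mathlib

/-! P280: the grading of a graded algebra by the generalized eigenvalues of an automorphism. -/

open DirectSum Module

namespace Vale.Agent.P280.R2.H730

variable {R : Type} [CommRing R] [Algebra ℂ R]

theorem gen_mul (f : R →ₐ[ℂ] R) (u w : ℂ) : ∀ (n k l : ℕ), k + l ≤ n → ∀ a b : R,
    ((f.toLinearMap - u • (1 : End ℂ R)) ^ k) a = 0 →
    ((f.toLinearMap - w • (1 : End ℂ R)) ^ l) b = 0 →
    ((f.toLinearMap - (u * w) • (1 : End ℂ R)) ^ n) (a * b) = 0 := by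
  intro n
  induction n with
  | zero =>
    intro k l hkl a b ha _
    obtain rfl : k = 0 := by omega
    have : a = 0 := by simpa using ha
    rw [this, zero_mul, map_zero]
  | succ n ih =>
    intro k l hkl a b ha hb
    rcases Nat.eq_zero_or_pos k with hk | hk
    · subst hk
      have : a = 0 := by simpa using ha
      rw [this, zero_mul, map_zero]
    rcases Nat.eq_zero_or_pos l with hl | hl
    · subst hl
      have : b = 0 := by simpa using hb
      rw [this, mul_zero, map_zero]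
    obtain ⟨k, rfl⟩ : ∃ k', k = k' + 1 := ⟨k - 1, by omega⟩
    obtain ⟨l, rfl⟩ : ∃ l', l = l' + 1 := ⟨l - 1, by omega⟩
    have e1 : (f.toLinearMap - (u * w) • (1 : End ℂ R)) (a * b) =
        ((f.toLinearMap - u • (1 : End ℂ R)) a) * f b +
          (u • a) * ((f.toLinearMap - w • (1 : End ℂ R)) b) := by
      simp only [LinearMap.sub_apply, LinearMap.smul_apply, End.one_apply, AlgHom.toLinearMap_apply,
        map_mul]
      simp only [Algebra.smul_def, map_mul]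
      ring
    rw [pow_succ, Module.End.mul_apply, e1, map_add]
    have h1 := ih k (l + 1) (by omega) ((f.toLinearMap - u • (1 : End ℂ R)) a) (f b)
      (by rw [← Module.End.mul_apply, ← pow_succ]; exact ha) (by
        have hc : Commute ((f.toLinearMap - w • (1 : End ℂ R)) ^ (l + 1)) f.toLinearMap := by
          apply Commute.pow_left
          apply Commute.sub_left (Commute.refl _)
          exact (Commute.one_left _).smul_left _
        have h2 := LinearMap.congr_fun hc.eq b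
        rw [Module.End.mul_apply, Module.End.mul_apply, hb, map_zero] at h2
        exact h2)
    have h2 := ih (k + 1) l (by omega) (u • a) ((f.toLinearMap - w • (1 : End ℂ R)) b)
      (by rw [map_smul, ha, smul_zero]) (by rw [← Module.End.mul_apply, ← pow_succ]; exact hb)
    rw [h1, h2, add_zero]

/-- The part of degree `d` of the generalized eigenspace. -/
noncomputable def V (𝒜 : ℕ → Submodule ℂ R) (f : R →ₐ[ℂ] R) (i : ℕ × ℂˣ) : Submodule ℂ R :=
  𝒜 i.1 ⊓ End.maxGenEigenspace f.toLinearMap (i.2 : ℂ)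

/-- The part of degree `d` and weight `m`. -/
noncomputable def B (𝒜 : ℕ → Submodule ℂ R) (f : R →ₐ[ℂ] R) (W : ℂˣ → ℚ) (i : ℕ × ℤ) :
    Submodule ℂ R :=
  ⨆ u : ℂˣ, ⨆ _ : W u = i.2, V 𝒜 f (i.1, u)

variable {𝒜 : ℕ → Submodule ℂ R} [GradedAlgebra 𝒜] {f : R →ₐ[ℂ] R} {W : ℂˣ → ℚ}

theorem V_mul {d e : ℕ} {u w : ℂˣ} {a b : R} (ha : a ∈ V 𝒜 f (d, u)) (hb : b ∈ V 𝒜 f (e, w)) :
    a * b ∈ V 𝒜 f (d + e, u * w) := by
  obtain ⟨ha1, ha2⟩ := Submodule.mem_inf.1 ha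
  obtain ⟨hb1, hb2⟩ := Submodule.mem_inf.1 hb
  refine Submodule.mem_inf.2 ⟨SetLike.mul_mem_graded ha1 hb1, ?_⟩
  rw [End.mem_maxGenEigenspace] at ha2 hb2 ⊢
  obtain ⟨k, hk⟩ := ha2
  obtain ⟨l, hl⟩ := hb2
  refine ⟨k + l, ?_⟩
  have := gen_mul f u w (k + l) k l le_rfl a b hk hl
  simpa using this

theorem V_indep : iSupIndep (V 𝒜 f) := by
  have hG : iSupIndep fun u : ℂˣ => End.maxGenEigenspace f.toLinearMap (u : ℂ) :=
    (End.independent_maxGenEigenspace f.toLinearMap).comp Units.val_injective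
  rintro ⟨d, u⟩
  rw [Submodule.disjoint_def]
  intro x hx hx'
  obtain ⟨h1, h2⟩ := Submodule.mem_inf.1 hx
  have key : (⨆ (j : ℕ × ℂˣ) (_ : j ≠ (d, u)), V 𝒜 f j) ≤
      (⨆ (w : ℂˣ) (_ : w ≠ u), End.maxGenEigenspace f.toLinearMap (w : ℂ)).comap
        (GradedAlgebra.proj 𝒜 d) := by
    refine iSup₂_le ?_
    rintro ⟨e, w⟩ hne y hy
    obtain ⟨h3, h4⟩ := Submodule.mem_inf.1 hy
    rw [Submodule.mem_comap, GradedAlgebra.proj_apply]
    by_cases hed : e = d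
    · subst hed
      have hwu : w ≠ u := fun h => hne (by rw [h])
      rw [decompose_of_mem_same 𝒜 h3]
      exact Submodule.mem_iSup_of_mem w (Submodule.mem_iSup_of_mem hwu h4)
    · rw [decompose_of_mem_ne 𝒜 h3 hed]
      exact Submodule.zero_mem _
  have h5 := key hx'
  rw [Submodule.mem_comap, GradedAlgebra.proj_apply, decompose_of_mem_same 𝒜 h1] at h5
  exact (Submodule.disjoint_def.1 (hG u)) x h2 h5

theorem B_indep : iSupIndep (B 𝒜 f W) := by
  intro i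
  have h1 := (V_indep (𝒜 := 𝒜) (f := f)).disjoint_biSup_biSup
    (s := {j : ℕ × ℂˣ | j.1 = i.1 ∧ W j.2 = i.2})
    (t := {j : ℕ × ℂˣ | j.1 = i.1 ∧ W j.2 = i.2}ᶜ) disjoint_compl_right
  refine h1.mono ?_ ?_
  · refine iSup₂_le fun u hu => ?_
    exact le_biSup (V 𝒜 f) (i := (i.1, u)) ⟨rfl, hu⟩
  · refine iSup₂_le fun j hj => iSup₂_le fun u hu => ?_
    refine le_biSup (V 𝒜 f) (i := (j.1, u)) ?_
    rintro ⟨h2, h3⟩
    refine hj (Prod.ext h2 ?_)
    have h4 : (j.2 : ℚ) = i.2 := by rw [← hu, ← h3]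
    exact_mod_cast h4

theorem B_mul (hW : ∀ u w, W (u * w) = W u + W w) {i j : ℕ × ℤ} {a b : R}
    (ha : a ∈ B 𝒜 f W i) (hb : b ∈ B 𝒜 f W j) : a * b ∈ B 𝒜 f W (i + j) := by
  have h1 : B 𝒜 f W i * B 𝒜 f W j ≤ B 𝒜 f W (i + j) := by
    unfold B
    simp only [Submodule.iSup_mul, Submodule.mul_iSup]
    refine iSup₂_le fun u hu => iSup₂_le fun w hw => ?_
    rw [Submodule.mul_le]
    intro a ha b hb
    refine Submodule.mem_iSup_of_mem (w * u) (Submodule.mem_iSup_of_mem ?_ (V_mul ha hb))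
    rw [hW, hu, hw]
    push_cast [Prod.snd_add]
    rfl
  exact h1 (Submodule.mul_mem_mul ha hb)

theorem B_one (hW1 : W 1 = 0) : (1 : R) ∈ B 𝒜 f W 0 := by
  refine Submodule.mem_iSup_of_mem 1 (Submodule.mem_iSup_of_mem (by simpa using hW1) ?_)
  refine Submodule.mem_inf.2 ⟨SetLike.one_mem_graded 𝒜, ?_⟩
  rw [End.mem_maxGenEigenspace]
  exact ⟨1, by simp⟩

omit [GradedAlgebra 𝒜] in
theorem B_le (i : ℕ × ℤ) : B 𝒜 f W i ≤ 𝒜 i.1 :=
  iSup₂_le fun _ _ => inf_le_left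

theorem B_top (hW : ∀ u w, W (u * w) = W u + W w) (hW1 : W 1 = 0)
    (hgen : Algebra.adjoin ℂ {h : R | h ∈ 𝒜 1} = ⊤) (h1 : 𝒜 1 ≤ ⨆ m : ℤ, B 𝒜 f W (1, m)) :
    iSup (B 𝒜 f W) = ⊤ := by
  have hone : (1 : R) ∈ iSup (B 𝒜 f W) := Submodule.mem_iSup_of_mem 0 (B_one hW1)
  have hmul : ∀ x y, x ∈ iSup (B 𝒜 f W) → y ∈ iSup (B 𝒜 f W) → x * y ∈ iSup (B 𝒜 f W) := by
    have : iSup (B 𝒜 f W) * iSup (B 𝒜 f W) ≤ iSup (B 𝒜 f W) := by
      rw [Submodule.iSup_mul]
      refine iSup_le fun i => ?_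
      rw [Submodule.mul_iSup]
      refine iSup_le fun j => ?_
      rw [Submodule.mul_le]
      intro a ha b hb
      exact Submodule.mem_iSup_of_mem (i + j) (B_mul hW ha hb)
    exact fun x y hx hy => this (Submodule.mul_mem_mul hx hy)
  have hle : Algebra.adjoin ℂ {h : R | h ∈ 𝒜 1} ≤ (iSup (B 𝒜 f W)).toSubalgebra hone hmul := by
    refine Algebra.adjoin_le fun h hh => ?_
    change h ∈ iSup (B 𝒜 f W)
    have h2 : (⨆ m : ℤ, B 𝒜 f W (1, m)) ≤ iSup (B 𝒜 f W) :=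
      iSup_le fun m => le_iSup (B 𝒜 f W) (1, m)
    exact h2 (h1 hh)
  rw [hgen] at hle
  rw [eq_top_iff]
  intro x _
  exact hle Algebra.mem_top

theorem exists_graded (hW : ∀ u w, W (u * w) = W u + W w) (hW1 : W 1 = 0)
    (hgen : Algebra.adjoin ℂ {h : R | h ∈ 𝒜 1} = ⊤) (h1 : 𝒜 1 ≤ ⨆ m : ℤ, B 𝒜 f W (1, m)) :
    Nonempty (GradedAlgebra (B 𝒜 f W)) := by
  have hi : DirectSum.IsInternal (B 𝒜 f W) :=
    DirectSum.isInternal_submodule_of_iSupIndep_of_iSup_eq_top B_indep (B_top hW hW1 hgen h1)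
  have hm : SetLike.GradedMonoid (B 𝒜 f W) :=
    { one_mem := B_one hW1
      mul_mem := fun _ _ _ _ ha hb => B_mul hW ha hb }
  letI hd : DirectSum.Decomposition (B 𝒜 f W) := hi.chooseDecomposition
  exact ⟨{ hm, hd with }⟩

theorem le_iSup_B (htop : iSup (B 𝒜 f W) = ⊤) (d : ℕ) : 𝒜 d ≤ ⨆ m : ℤ, B 𝒜 f W (d, m) := by
  intro x hx
  have key : iSup (B 𝒜 f W) ≤ (⨆ m : ℤ, B 𝒜 f W (d, m)).comap (GradedAlgebra.proj 𝒜 d) := by
    refine iSup_le ?_
    rintro ⟨e, m⟩ y hy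
    rw [Submodule.mem_comap, GradedAlgebra.proj_apply]
    by_cases hed : e = d
    · subst hed
      rw [decompose_of_mem_same 𝒜 (B_le (e, m) hy)]
      exact Submodule.mem_iSup_of_mem m hy
    · rw [decompose_of_mem_ne 𝒜 (B_le (e, m) hy) hed]
      exact Submodule.zero_mem _
  have h5 := key (htop ▸ Submodule.mem_top : x ∈ iSup (B 𝒜 f W))
  rwa [Submodule.mem_comap, GradedAlgebra.proj_apply, decompose_of_mem_same 𝒜 hx] at h5

end Vale.Agent.P280.R2.H730
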