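import Mathlib

/-! P280: rational weights on the multiplicative group of the complex numbers. -/

namespace Vale.Agent.P280.R2.H730

theorem exists_wt {u : ℂˣ} (hu : ¬ IsOfFinOrder u) (E : Finset ℂˣ) :
    ∃ (W : ℂˣ → ℚ) (N : ℤ), (∀ x y, W (x * y) = W x + W y) ∧ W 1 = 0 ∧ N ≠ 0 ∧ W u = N ∧
      ∀ x ∈ E, ∃ m : ℤ, W x = m := by
  have hb : Module.Baer ℤ ℚ := Module.Baer.of_divisible ℚ
  have hinj : Function.Injective (zmultiplesHom (Additive ℂˣ) (Additive.ofMul u)) := by
    intro a b hab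
    rw [zmultiplesHom_apply, zmultiplesHom_apply, ← ofMul_zpow, ← ofMul_zpow] at hab
    have h1 : u ^ a = u ^ b := Additive.ofMul.injective hab
    exact injective_zpow_iff_not_isOfFinOrder.2 hu h1
  obtain ⟨h, hh⟩ := hb.extension_property_addMonoidHom _ hinj (Int.castAddHom ℚ)
  have h1 : h (Additive.ofMul u) = 1 := by
    have := DFunLike.congr_fun hh 1
    simpa using this
  set N : ℕ := ∏ x ∈ E, (h (Additive.ofMul x)).den with hN
  have hN0 : N ≠ 0 := Finset.prod_ne_zero_iff.2 fun x _ => Rat.den_nz _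
  refine ⟨fun x => N * h (Additive.ofMul x), N, fun x y => ?_, ?_, ?_, ?_, fun x hx => ?_⟩
  · dsimp only
    rw [ofMul_mul, map_add, mul_add]
  · dsimp only
    rw [ofMul_one, map_zero, mul_zero]
  · exact_mod_cast hN0
  · dsimp only
    rw [h1, mul_one]
    rfl
  · obtain ⟨k, hk⟩ := Finset.dvd_prod_of_mem (fun x => (h (Additive.ofMul x)).den) hx
    rw [← hN] at hk
    refine ⟨k * (h (Additive.ofMul x)).num, ?_⟩
    dsimp only
    have h2 := Rat.mul_den_eq_num (h (Additive.ofMul x))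
    rw [hk]
    push_cast
    rw [← h2]
    ring

end Vale.Agent.P280.R2.H730
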