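import Vale.Agent.P280.R2.H730.Div
import Vale.Agent.P280.R2.H730.Gen
import Vale.Agent.P280.R2.H730.Wt

/-! P280: an automorphism with a scalar differential at a fixed point. -/

open DirectSum Module

namespace Vale.Agent.P280.S

variable {R : Type} [CommRing R] [Algebra ℂ R]

/-- `g`, an automorphism of `X` (and of `O(1)`), fixes the point `x` of the cone over `X`, and `c`
is the only eigenvalue of its differential at the point of `X` below `x`: a power of
`dg_x - c` is zero (tangent vectors of `X` are the tangent vectors of the cone modulo the Euler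
vector `h ↦ d · x h`). -/
def IsOnlyEigenvalue (𝒜 : ℕ → Submodule ℂ R) (g : R ≃ₐ[ℂ] R) (x : R →ₐ[ℂ] ℂ) (c : ℂ) : Prop :=
  (∀ d : ℕ, ∀ h ∈ 𝒜 d, g h ∈ 𝒜 d) ∧ (∀ h, x (g h) = x h) ∧
    ∃ K : ℕ, ∀ v : R →ₗ[ℂ] ℂ, IsTangent x v → ∃ k : ℂ, ∀ d : ℕ, ∀ h ∈ 𝒜 d,
      v ((fun y => g y - c • y)^[K] h) = k * d * x h

end Vale.Agent.P280.S

namespace Vale.Agent.P280.R2.H730

open Vale.Agent.P280 Vale.Agent.P280.S

variable {R : Type} [CommRing R] [Algebra ℂ R] {𝒜 : ℕ → Submodule ℂ R} [GradedAlgebra 𝒜]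

theorem fin_one (hX : IsProjectiveManifold 𝒜) : (𝒜 1).FG := by
  have := hX.finiteType
  have : IsNoetherianRing R := Algebra.FiniteType.isNoetherianRing ℂ R
  obtain ⟨S, hS, hSI⟩ := (Submodule.fg_span_iff_fg_span_finset_subset (R := R)
    (𝒜 1 : Set R)).1 (IsNoetherian.noetherian _)
  refine ⟨S, le_antisymm (Submodule.span_le.2 hS) ?_⟩
  intro x hx
  have hxI : x ∈ Submodule.span R (S : Set R) := by
    rw [← hSI]; exact Submodule.subset_span hx
  have key : ∀ y ∈ Submodule.span R (S : Set R),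
      ((decompose 𝒜 y) 1 : R) ∈ Submodule.span ℂ (S : Set R) := by
    intro y hy
    induction hy using Submodule.span_induction with
    | mem s hs =>
      rw [decompose_of_mem_same _ (hS hs)]
      exact Submodule.subset_span hs
    | zero => rw [decompose_zero]; exact Submodule.zero_mem _
    | add a b _ _ ha hb =>
      rw [decompose_add, DirectSum.add_apply, Submodule.coe_add]
      exact Submodule.add_mem _ ha hb
    | smul r a ha ih =>
      clear ih
      induction ha using Submodule.span_induction generalizing r with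
      | mem s hs =>
        have hs1 : s ∈ 𝒜 1 := hS hs
        have h1 := DirectSum.coe_decompose_mul_add_of_right_mem 𝒜 (a := r) (i := 0) hs1
        rw [zero_add] at h1
        rw [smul_eq_mul, h1]
        obtain ⟨c, hc⟩ := hX.zero ((decompose 𝒜 r) 0 : R) (SetLike.coe_mem _)
        rw [hc, ← Algebra.smul_def]
        exact Submodule.smul_mem _ _ (Submodule.subset_span hs)
      | zero => rw [smul_zero, decompose_zero]; exact Submodule.zero_mem _
      | add a b _ _ ha hb =>
        rw [smul_add, decompose_add, DirectSum.add_apply, Submodule.coe_add]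
        exact Submodule.add_mem _ (ha r) (hb r)
      | smul t a _ ih =>
        rw [smul_smul]
        exact ih (r * t)
  have h1 := key x hxI
  rwa [decompose_of_mem_same _ hx] at h1

omit [GradedAlgebra 𝒜] in
/-- A linear form killed by a power of `f - c` in degree `d` vanishes on the other generalized
eigenspaces. -/
theorem ker_of_ne {f : R →ₐ[ℂ] R} {d : ℕ} (hf : ∀ h ∈ 𝒜 d, f h ∈ 𝒜 d) {w : R →ₗ[ℂ] ℂ} {c : ℂ}
    {K : ℕ} (hw : ∀ y ∈ 𝒜 d, w (((f.toLinearMap - c • (1 : End ℂ R)) ^ K) y) = 0) {u : ℂˣ}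
    (hu : (u : ℂ) ≠ c) {h : R} (hh : h ∈ V 𝒜 f (d, u)) : w h = 0 := by
  obtain ⟨h1, h2⟩ := Submodule.mem_inf.1 hh
  rw [End.mem_maxGenEigenspace] at h2
  obtain ⟨k, hk⟩ := h2
  have hcop : IsCoprime ((Polynomial.X - Polynomial.C c) ^ K)
      ((Polynomial.X - Polynomial.C (u : ℂ)) ^ k) :=
    (Polynomial.isCoprime_X_sub_C_of_isUnit_sub (sub_ne_zero.2 hu.symm).isUnit).pow
  obtain ⟨a, b, hab⟩ := hcop
  have e : ∀ (z : ℂ) (n : ℕ), Polynomial.aeval (f.toLinearMap : End ℂ R)
      ((Polynomial.X - Polynomial.C z) ^ n) = (f.toLinearMap - z • (1 : End ℂ R)) ^ n := by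
    intro z n
    rw [map_pow, map_sub, Polynomial.aeval_X, Polynomial.aeval_C, Algebra.algebraMap_eq_smul_one]
  have h3 := congrArg (fun q => Polynomial.aeval (f.toLinearMap : End ℂ R) q h) hab
  simp only [map_add, map_mul, map_one, End.one_apply] at h3
  rw [e, e, LinearMap.add_apply, Module.End.mul_apply, Module.End.mul_apply, hk, map_zero,
    add_zero, ← Module.End.mul_apply] at h3
  have hcomm : Polynomial.aeval (f.toLinearMap : End ℂ R) a *
      (f.toLinearMap - c • (1 : End ℂ R)) ^ K = (f.toLinearMap - c • (1 : End ℂ R)) ^ K *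
      Polynomial.aeval (f.toLinearMap : End ℂ R) a := by
    rw [← e, ← map_mul, ← map_mul, mul_comm]
  rw [hcomm, Module.End.mul_apply] at h3
  rw [← h3]
  refine hw _ ?_
  have key : ∀ q : Polynomial ℂ, Polynomial.aeval (f.toLinearMap : End ℂ R) q h ∈ 𝒜 d := by
    intro q
    induction q using Polynomial.induction_on' with
    | add p q hp hq => rw [map_add, LinearMap.add_apply]; exact Submodule.add_mem _ hp hq
    | monomial n z =>
      rw [Polynomial.aeval_monomial, Module.End.mul_apply, Module.algebraMap_end_apply]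
      refine Submodule.smul_mem _ _ ?_
      induction n with
      | zero => simpa using h1
      | succ n ih => rw [pow_succ', Module.End.mul_apply]; exact hf _ ih
  exact key a

omit [GradedAlgebra 𝒜] in
theorem eig_pow {f : R →ₐ[ℂ] R} {x : R →ₐ[ℂ] ℂ} (hx : ∀ h, x (f h) = x h) (c : ℂ) :
    ∀ (K : ℕ) (y : R), x (((f.toLinearMap - c • (1 : End ℂ R)) ^ K) y) = (1 - c) ^ K * x y := by
  intro K
  induction K with
  | zero => intro y; simp
  | succ K ih =>
    intro y
    have e1 : (f.toLinearMap - c • (1 : End ℂ R)) y = f y - c • y := by simp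
    rw [pow_succ, Module.End.mul_apply, e1, ih, map_sub, map_smul, hx, smul_eq_mul, pow_succ]
    ring

omit [GradedAlgebra 𝒜] in
theorem one_le {f : R →ₐ[ℂ] R} (hinj : Function.Injective f) (hf : ∀ h ∈ 𝒜 1, f h ∈ 𝒜 1)
    (hfin : FiniteDimensional ℂ (𝒜 1)) :
    ∃ E : Finset ℂˣ, ∀ W : ℂˣ → ℚ, (∀ x ∈ E, ∃ m : ℤ, W x = m) →
      𝒜 1 ≤ ⨆ m : ℤ, B 𝒜 f W (1, m) := by
  let f1 : End ℂ (𝒜 1) := LinearMap.restrict f.toLinearMap hf
  have hfinite : {μ : ℂ | End.maxGenEigenspace f1 μ ≠ ⊥}.Finite :=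
    WellFoundedGT.finite_ne_bot_of_iSupIndep (End.independent_maxGenEigenspace f1)
  refine ⟨(hfinite.preimage (Units.val_injective (α := ℂ)).injOn).toFinset, fun W hW => ?_⟩
  have h1 : (⨆ μ : ℂ, End.maxGenEigenspace f1 μ) = ⊤ := End.iSup_maxGenEigenspace_eq_top f1
  have h2 : 𝒜 1 = Submodule.map (𝒜 1).subtype ⊤ := by simp
  rw [← h1, Submodule.map_iSup] at h2
  rw [h2]
  refine iSup_le fun μ => ?_
  by_cases hbot : End.maxGenEigenspace f1 μ = ⊥
  · rw [hbot, Submodule.map_bot]; exact bot_le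
  have hμ : μ ≠ 0 := by
    rintro rfl
    apply hbot
    rw [eq_bot_iff]
    intro y hy
    rw [End.mem_maxGenEigenspace] at hy
    obtain ⟨k, hk⟩ := hy
    rw [zero_smul] at hk
    have hs : f1 - 0 = f1 := by ext; simp
    rw [hs] at hk
    have hinj1 : Function.Injective f1 := by
      intro a b hab
      exact Subtype.ext (hinj (congrArg Subtype.val hab))
    rw [Module.End.pow_apply] at hk
    have : (f1)^[k] y = (f1)^[k] 0 := by
      rw [hk]
      exact (Function.iterate_fixed (map_zero f1) k).symm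
    exact (hinj1.iterate k) this
  have hmem : Units.mk0 μ hμ ∈ (hfinite.preimage (Units.val_injective (α := ℂ)).injOn).toFinset := by
    rw [Set.Finite.mem_toFinset]
    exact hbot
  obtain ⟨m, hm⟩ := hW _ hmem
  have h3 := Submodule.inf_genEigenspace f.toLinearMap (𝒜 1) (k := ⊤) (μ := μ) hf
  have h4 : Submodule.map (𝒜 1).subtype (End.maxGenEigenspace f1 μ) ≤
      V 𝒜 f (1, Units.mk0 μ hμ) := h3.ge
  refine h4.trans (le_trans ?_ (le_iSup (fun m : ℤ => B 𝒜 f W (1, m)) m))
  exact le_iSup₂_of_le (Units.mk0 μ hμ) hm le_rfl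

theorem hasHomothety_of_eigenvalue (hX : IsProjectiveManifold 𝒜)
    {x : R →ₐ[ℂ] ℂ} {g : R ≃ₐ[ℂ] R} {c : ℂ} (hx0 : ¬ IsVertex 𝒜 x) (hg : IsOnlyEigenvalue 𝒜 g x c)
    (hc : c ≠ 0) (hc1 : ∀ n : ℕ, 0 < n → c ^ n ≠ 1) : HasHomothety 𝒜 := by
  obtain ⟨hg1, hgx, K, hgv⟩ := hg
  have hit : ∀ (n : ℕ) (h : R), (fun y => g y - c • y)^[n] h =
      (((g : R →ₐ[ℂ] R).toLinearMap - c • (1 : End ℂ R)) ^ n) h := by
    intro n
    induction n with
    | zero => intro h; simp
    | succ n ih => intro h; rw [Function.iterate_succ_apply, ih, pow_succ, Module.End.mul_apply]; simp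
  have hfin : FiniteDimensional ℂ (𝒜 1) := Module.Finite.iff_fg.2 (fin_one hX)
  obtain ⟨E, hE⟩ := one_le (𝒜 := 𝒜) (f := (g : R →ₐ[ℂ] R)) g.injective (hg1 1) hfin
  have hord : ¬ IsOfFinOrder (Units.mk0 c hc) := by
    rw [isOfFinOrder_iff_pow_eq_one]
    rintro ⟨n, hn, h⟩
    refine hc1 n hn ?_
    have := congrArg Units.val h
    simpa using this
  obtain ⟨W, N, hW, hW1, hN0, hWc, hWE⟩ := exists_wt hord E
  have hA1 := hE W hWE
  obtain ⟨hB⟩ := exists_graded hW hW1 hX.gen hA1
  have hr : Refines 𝒜 (B 𝒜 (g : R →ₐ[ℂ] R) W) :=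
    ⟨fun d m => B_le (d, m), le_iSup_B (B_top hW hW1 hX.gen hA1)⟩
  have hc2 : (1 : ℂ) - c ≠ 0 := by
    intro h
    exact hc1 1 one_pos (by rw [pow_one]; linear_combination -h)
  have hfix : ∀ (d : ℕ) (m : ℤ), m ≠ 0 → ∀ h ∈ B 𝒜 (g : R →ₐ[ℂ] R) W (d, m), x h = 0 := by
    intro d m hm
    have : B 𝒜 (g : R →ₐ[ℂ] R) W (d, m) ≤ LinearMap.ker x.toLinearMap := by
      refine iSup₂_le fun u hu h hh => ?_
      rw [LinearMap.mem_ker]
      refine ker_of_ne (f := (g : R →ₐ[ℂ] R)) (hg1 d) (c := 1) (K := 1) (fun y _ => ?_) ?_ hh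
      · have := eig_pow (f := (g : R →ₐ[ℂ] R)) (x := x) hgx 1 1 y
        rw [sub_self, pow_one, pow_one, zero_mul] at this
        rw [pow_one]
        exact this
      · intro h1
        have h2 : u = 1 := Units.ext h1
        rw [h2, hW1] at hu
        exact hm (by exact_mod_cast hu.symm)
    exact fun h hh => this hh
  have hfixed : T.IsFixed (B 𝒜 (g : R →ₐ[ℂ] R) W) x 0 := by
    intro d m h hh hne
    by_contra hm
    rw [smul_zero] at hm
    exact hne (hfix d m hm h hh)
  have hwt : ∀ χ : ℤ, T.TangentWeight (B 𝒜 (g : R →ₐ[ℂ] R) W) x 0 χ → χ = N := by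
    rintro χ ⟨v, hv, hw, hne⟩
    by_contra hχ
    obtain ⟨k, hk⟩ := hgv v hv
    obtain ⟨d, m, h, hh, hne⟩ := hne (k / (1 - c) ^ K)
    apply hne
    by_cases hm : m = N
    · subst hm
      rw [hfix d m hN0 h hh, mul_zero]
      by_contra hvh
      have := hw d m h hh hvh
      rw [smul_zero, zero_add] at this
      exact hχ this.symm
    · have : B 𝒜 (g : R →ₐ[ℂ] R) W (d, m) ≤
          LinearMap.ker (v - (k / (1 - c) ^ K * d) • x.toLinearMap) := by
        refine iSup₂_le fun u hu h hh => ?_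
        rw [LinearMap.mem_ker]
        refine ker_of_ne (f := (g : R →ₐ[ℂ] R)) (hg1 d) (c := c) (K := K) (fun y hy => ?_) ?_ hh
        · have h6 := hk d y hy
          have h7 := eig_pow (f := (g : R →ₐ[ℂ] R)) (x := x) hgx c K y
          rw [hit] at h6
          rw [LinearMap.sub_apply, LinearMap.smul_apply, h6]
          change k * d * x y - (k / (1 - c) ^ K * d) * x _ = 0
          rw [h7]
          field_simp
          ring
        · intro h1
          have h2 : u = Units.mk0 c hc := Units.ext h1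
          rw [h2, hWc] at hu
          exact hm (by exact_mod_cast hu.symm)
      have h5 := this hh
      rw [LinearMap.mem_ker] at h5
      change v h - (k / (1 - c) ^ K * d) * x h = 0 at h5
      linear_combination h5
  exact hasHomothety_of_weights hX hr hN0 hx0 hfixed hwt

end Vale.Agent.P280.R2.H730
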