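import Vale.Agent.P280.S.H980.Sym

/-! P280: if all the tangent weights at a fixed point are equal to `N`, all weights are multiples of
`N`. -/

open DirectSum Module

namespace Vale.Agent.P280.R2.H730

open Vale.Agent.P280 Vale.Agent.P280.S Vale.Agent.P280.H939

variable {R : Type} [CommRing R] [Algebra ℂ R] {ℬ : ℕ × ℤ → Submodule ℂ R} [GradedAlgebra ℬ]
  {p : R →ₐ[ℂ] ℂ} {N : ℤ}

/-- The ideal generated by the weights which are not multiples of `N`. -/
def J (ℬ : ℕ × ℤ → Submodule ℂ R) (N : ℤ) : Ideal R :=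
  Ideal.span {h | ∃ (d : ℕ) (m : ℤ), ¬ N ∣ m ∧ h ∈ ℬ (d, m)}

omit [GradedAlgebra ℬ] in
theorem mem_J {k : ℤ} (hk : ¬ N ∣ k) {z : R} (hz : z ∈ T.coarse ℬ (wt 0) k) : z ∈ J ℬ N := by
  refine T.coarse_induction (P := fun z => z ∈ J ℬ N) (Ideal.zero_mem _)
    (fun a b ha hb => Ideal.add_mem _ ha hb) ?_ hz
  rintro ⟨d, m⟩ hi h hh
  rw [wt_apply, mul_zero, sub_zero] at hi
  subst hi
  exact Ideal.subset_span ⟨d, m, hk, hh⟩

theorem pr_sq (hfix : T.IsFixed ℬ p 0) {k : ℤ} (hk : ¬ N ∣ k) {b : R}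
    (hb : b ∈ (RingHom.ker p) ^ 2) : pr ℬ 0 k b ∈ RingHom.ker p * J ℬ N := by
  rw [pow_two] at hb
  induction hb using Submodule.mul_induction_on' with
  | mem_mul_mem x hx y hy =>
    have key : ∀ j : ℤ, ∀ z ∈ T.coarse ℬ (wt 0) j, z ∈ RingHom.ker p →
        pr ℬ 0 k (x * z) ∈ RingHom.ker p * J ℬ N := by
      intro j z hz hzk
      rw [pr_mul ℬ 0 k x hz]
      by_cases hj : N ∣ j
      · have h1 : ¬ N ∣ k - j := fun h => hk (by simpa using dvd_add h hj)
        rw [mul_comm (RingHom.ker p)]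
        exact Ideal.mul_mem_mul (mem_J h1 (pr_mem ℬ 0 (k - j) x)) hzk
      · exact Ideal.mul_mem_mul (pr_ker hfix _ hx) (mem_J hj hz)
    classical
    have hsum := DirectSum.sum_support_decompose (T.coarse ℬ (wt 0)) y
    rw [← hsum, Finset.mul_sum, map_sum]
    refine Ideal.sum_mem _ fun j _ => key j _ (SetLike.coe_mem _) ?_
    have := pr_ker hfix j hy
    unfold pr at this
    rwa [GradedAlgebra.proj_apply] at this
  | add x hx y hy hx' hy' => rw [map_add]; exact Ideal.add_mem _ hx' hy'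

/-- All tangent vectors vanish on `h`, so `h` is in the square of the maximal ideal. -/
theorem mem_sq_of_dvd (hfix : T.IsFixed ℬ p 0) (hw : ∀ χ, T.TangentWeight ℬ p 0 χ → χ = N)
    {d : ℕ} {m : ℤ} (hm : ¬ N ∣ m) {h : R} (hh : h ∈ ℬ (d, m)) : h ∈ (RingHom.ker p) ^ 2 := by
  have hm0 : m ≠ 0 := fun h0 => hm (h0 ▸ dvd_zero N)
  have hph : p h = 0 := by
    by_contra hne
    have := hfix d m h hh hne
    rw [smul_zero] at this
    exact hm0 this
  have hsqp : ∀ x ∈ (RingHom.ker p) ^ 2, p x = 0 := fun x hx =>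
    (RingHom.mem_ker (f := p)).1 (Ideal.pow_le_self two_ne_zero hx)
  by_contra hcon
  have hcon' : h ∉ ((RingHom.ker p) ^ 2).restrictScalars ℂ ⊔ Submodule.span ℂ {(1 : R)} := by
    intro hmem
    obtain ⟨y, hy, z, hz, hyz⟩ := Submodule.mem_sup.1 hmem
    obtain ⟨c, rfl⟩ := Submodule.mem_span_singleton.1 hz
    have h1 := congrArg p hyz
    rw [map_add, hsqp y hy, map_smul, map_one, zero_add, hph] at h1
    have hc : c = 0 := by simpa using h1
    rw [hc, zero_smul, add_zero] at hyz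
    exact hcon (hyz ▸ hy)
  obtain ⟨lam, hlam, hker⟩ := Submodule.exists_le_ker_of_notMem hcon'
  have hl2 : ∀ x ∈ (RingHom.ker p) ^ 2, lam x = 0 := fun x hx =>
    hker (Submodule.mem_sup_left hx)
  have hl1 : lam 1 = 0 :=
    hker (Submodule.mem_sup_right (Submodule.mem_span_singleton_self (1 : R)))
  have hv : T.IsTangent p lam := by
    intro a b
    have hmem : (a - algebraMap ℂ R (p a)) * (b - algebraMap ℂ R (p b)) ∈ (RingHom.ker p) ^ 2 := by
      rw [pow_two]
      refine Ideal.mul_mem_mul ?_ ?_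
      · rw [RingHom.mem_ker, map_sub, AlgHom.commutes]; simp
      · rw [RingHom.mem_ker, map_sub, AlgHom.commutes]; simp
    have e1 : a * b = (a - algebraMap ℂ R (p a)) * (b - algebraMap ℂ R (p b)) +
        (p a • b + p b • a - (p a * p b) • (1 : R)) := by
      simp only [Algebra.smul_def, map_mul]
      ring
    rw [e1, map_add, hl2 _ hmem, map_sub, map_add, map_smul, map_smul, map_smul, hl1]
    simp [smul_eq_mul]
  obtain ⟨v', h1, h2, h3⟩ := H587.exists_component hfix hv m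
  have h4 := h3 d m h hh (by rw [smul_zero, zero_add])
  have h5 := hw m (H587.tangentWeight_of_ne hfix hm0 h1 h2 d m hh (by rw [h4]; exact hlam))
  exact hm (h5 ▸ dvd_refl N)

theorem dvd_of_ne [IsDomain R] [IsNoetherianRing R] (hfix : T.IsFixed ℬ p 0)
    (hw : ∀ χ, T.TangentWeight ℬ p 0 χ → χ = N) {d : ℕ} {m : ℤ} {h : R} (hh : h ∈ ℬ (d, m))
    (hne : h ≠ 0) : N ∣ m := by
  by_contra hm
  have hJ : J ℬ N ≤ RingHom.ker p * J ℬ N := by
    refine Ideal.span_le.2 ?_
    rintro y ⟨e, k, hk, hy⟩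
    have h1 := pr_sq (N := N) hfix hk (mem_sq_of_dvd hfix hw hk hy)
    rwa [pr_same ℬ 0 (T.mem_coarse hy (by rw [wt_apply, mul_zero, sub_zero]))] at h1
  obtain ⟨r, hr, hr0⟩ := Submodule.exists_sub_one_mem_and_smul_eq_zero_of_fg_of_le_smul
    (RingHom.ker p) (J ℬ N) (IsNoetherian.noetherian _) hJ
  have h2 := hr0 h (Ideal.subset_span ⟨d, m, hm, hh⟩)
  rw [smul_eq_mul] at h2
  have hr1 : p r = 1 := by
    have := (RingHom.mem_ker (f := p)).1 hr
    rw [map_sub, map_one, sub_eq_zero] at this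
    exact this
  rcases mul_eq_zero.1 h2 with h3 | h3
  · rw [h3, map_zero] at hr1
    exact zero_ne_one hr1
  · exact hne h3

/-- Division of the weights by `N`. -/
theorem hasHomothety_of_weights {𝒜 : ℕ → Submodule ℂ R} (hX : IsProjectiveManifold 𝒜)
    (hr : Refines 𝒜 ℬ) (hN : N ≠ 0) (hx0 : ¬ IsVertex 𝒜 p) (hfix : T.IsFixed ℬ p 0)
    (hw : ∀ χ, T.TangentWeight ℬ p 0 χ → χ = N) : HasHomothety 𝒜 := by
  have := hX.domain
  have := hX.finiteType
  have : IsNoetherianRing R := Algebra.FiniteType.isNoetherianRing ℂ R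
  let C : ℕ × ℤ → Submodule ℂ R := fun i => ℬ (i.1, N * i.2)
  have hle : ∀ (d : ℕ) (m : ℤ), ℬ (d, m) ≤ ⨆ k : ℤ, C (d, k) := by
    intro d m h hh
    by_cases hne : h = 0
    · rw [hne]; exact Submodule.zero_mem _
    obtain ⟨k, rfl⟩ := dvd_of_ne hfix hw hh hne
    exact Submodule.mem_iSup_of_mem k hh
  have hind : iSupIndep C := by
    have h1 : iSupIndep ℬ := (DirectSum.Decomposition.isInternal ℬ).submodule_iSupIndep
    refine h1.comp (f := fun i : ℕ × ℤ => (i.1, N * i.2)) ?_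
    rintro ⟨a, b⟩ ⟨a', b'⟩ hab
    have h2 := Prod.ext_iff.1 hab
    exact Prod.ext h2.1 (mul_left_cancel₀ hN h2.2)
  have htop : iSup C = ⊤ := by
    rw [eq_top_iff, ← (DirectSum.Decomposition.isInternal ℬ).submodule_iSup_eq_top]
    refine iSup_le ?_
    rintro ⟨d, m⟩
    exact (hle d m).trans (iSup_le fun k => le_iSup C (d, k))
  have hone : (1 : R) ∈ C 0 := by
    change (1 : R) ∈ ℬ (0, N * 0)
    rw [mul_zero]
    exact SetLike.one_mem_graded ℬ
  have hmul : ∀ {i j : ℕ × ℤ} {a b : R}, a ∈ C i → b ∈ C j → a * b ∈ C (i + j) := by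
    intro i j a b ha hb
    change a * b ∈ ℬ (i.1 + j.1, N * (i.2 + j.2))
    rw [mul_add]
    exact SetLike.mul_mem_graded (A := ℬ) (i := (i.1, N * i.2)) (j := (j.1, N * j.2)) ha hb
  have hi : DirectSum.IsInternal C :=
    DirectSum.isInternal_submodule_of_iSupIndep_of_iSup_eq_top hind htop
  have hm : SetLike.GradedMonoid C :=
    { one_mem := hone
      mul_mem := fun _ _ _ _ ha hb => hmul ha hb }
  let hd : DirectSum.Decomposition C := hi.chooseDecomposition
  refine ⟨C, ⟨{ hm, hd with }⟩, fun d => le_antisymm ?_ ?_, p, hx0, ?_, ?_⟩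
  · exact (hr.ge d).trans (iSup_le fun m => hle d m)
  · exact iSup_le fun m => hr.le d (N * m)
  · intro d m h hh hne
    have := hfix d (N * m) h hh hne
    rw [smul_zero] at this ⊢
    rcases mul_eq_zero.1 this with h1 | h1
    · exact absurd h1 hN
    · exact h1
  · rintro χ ⟨v, hv, hvw, hve⟩
    have h1 : T.TangentWeight ℬ p 0 (N * χ) := by
      refine ⟨v, hv, fun d m h hh hne => ?_, fun c => ?_⟩
      · obtain ⟨k, rfl⟩ := dvd_of_ne hfix hw hh (fun h0 => hne (by rw [h0, map_zero]))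
        have := hvw d k h hh hne
        rw [smul_zero, zero_add] at this ⊢
        rw [this]
      · obtain ⟨d, m, h, hh, hne⟩ := hve c
        exact ⟨d, N * m, h, hh, hne⟩
    have h2 := hw _ h1
    exact mul_left_cancel₀ hN (by rw [h2, mul_one])

end Vale.Agent.P280.R2.H730
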