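import Vale.Agent.P280.R2.H730.Aut
import Vale.Agent.P280.R2.H730.Act

/-! P280: manifolds with an automorphism with a scalar differential at a fixed point. -/

open DirectSum Module

namespace Vale.Agent.P280.R2.H730

open Vale.Agent.P280 Vale.Agent.P280.S

variable {R : Type} [CommRing R] [Algebra ℂ R] {𝒜 : ℕ → Submodule ℂ R} [GradedAlgebra 𝒜]

theorem eigenvalue_of_hasHomothety (hX : IsProjectiveManifold 𝒜) (h : HasHomothety 𝒜) :
    ∃ (g : R ≃ₐ[ℂ] R) (x : R →ₐ[ℂ] ℂ), ¬ IsVertex 𝒜 x ∧ IsOnlyEigenvalue 𝒜 g x 2 := by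
  obtain ⟨ℬ, ⟨hB⟩, hr0, x, hx0, hx, hw⟩ := h
  have hr := refines_of_eq hr0
  obtain ⟨F, hF⟩ := exists_two ℬ
  have hx0' : ¬ T.IsVertex ℬ x := fun h => hx0 (hr.isVertex.1 h)
  refine ⟨F, x, hx0, fun d h hh => ?_, fun h => ?_, 1, fun v hv => ?_⟩
  · have h1 : 𝒜 d ≤ (𝒜 d).comap F.toLinearMap := hr.sub fun m a ha => by
      rw [Submodule.mem_comap]
      change F a ∈ 𝒜 d
      rw [hF d m a ha]
      exact Submodule.smul_mem _ _ (hr.le d m ha)
    exact h1 hh
  · have h1 : x.comp (F : R →ₐ[ℂ] R) = x := by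
      refine T.algHom_ext_graded ℬ ?_
      rintro ⟨d, m⟩ a ha
      change x (F a) = x a
      rw [hF d m a ha, map_smul]
      by_cases hne : x a = 0
      · rw [hne, smul_zero]
      · have h2 := hx d m a ha hne
        rw [smul_zero] at h2
        rw [h2, zpow_zero, one_smul]
    exact AlgHom.congr_fun h1 h
  · obtain ⟨k, hk⟩ := two_tangent (hr.isTorusManifold hX) hx0' hx hw hF hv
    refine ⟨k, fun d h hh => ?_⟩
    have h1 := H980.eqOn_of_refines hr (v.comp F.toLinearMap)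
      ((2 : ℂ) • v + (k * d) • x.toLinearMap) (fun m a ha => hk d m a ha) h hh
    change v (F h) = 2 * v h + k * d * x h at h1
    change v (F h - (2 : ℂ) • h) = k * d * x h
    rw [map_sub, h1, map_smul, smul_eq_mul]
    ring

end Vale.Agent.P280.R2.H730
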